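import Mathlib
import Vale.Agent.Lib.P079.Defs
import Vale.Agent.Lib.P079.Main
import Vale.Agent.Lib.P079.Sequences

/-!
# P079: two reductions of Kirk's problem

`Reflexive X`: the canonical map of the real normed space `X` into its bidual is onto.
`FPP X`: every nonexpansive self-map of a nonempty, closed, bounded, convex subset of `X` has a
fixed point.
`KirkAll`: every reflexive real Banach space has `FPP`; `KirkSeparable`: every separable one
has it; `KirkSequences`: every reflexive closed linear subspace of the space of bounded real
sequences has it.

The statement that every reflexive real Banach space has the fixed point property for
nonexpansive maps is equivalent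

1. to the same statement for separable reflexive real Banach spaces, and
2. to the statement that every reflexive closed linear subspace of the space of bounded real
   sequences (with the supremum norm) has the fixed point property.

So a counterexample to Kirk's problem, if there is one, exists in a separable reflexive space,
and indeed in a reflexive closed subspace of the space of bounded sequences.
-/

namespace Vale.Agent.Results.P079.SeparableReduction

open Vale.Agent.Lib.P079

universe u

theorem result :
    (KirkAll.{u} ↔ KirkSeparable.{u}) ∧ (KirkAll.{u} ↔ KirkSequences) :=
  ⟨⟨fun h X _ _ _ _ hX => h X hX, fun h X _ _ _ hX => fpp_of_separable h X hX⟩,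
    ⟨fun h Y hY hr => bounded_sequences_of_fpp h Y hY hr,
      fun h X _ _ _ hX =>
        fpp_of_separable (fun Z _ _ _ _ hZ => fpp_of_bounded_sequences h Z hZ) X hX⟩⟩

end Vale.Agent.Results.P079.SeparableReduction
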